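import Mathlib
import Vale.Agent.P209.Defs
import Vale.Agent.P209.Toric
import Vale.Agent.P209.Configs
import Vale.Agent.P209.Asymp
import Vale.Agent.P209.Mixed

/-! Sufficiency in Siegel-Yao Conjecture A for large ranges of configurations. -/

namespace Vale.Agent.Results.P209.ConjASufficiency

open Vale.Agent.P209 Filter Topology

theorem of_scaled {n k : ℕ} (hn : 1 ≤ n) (r : Fin k → ℝ) (R : ℝ) (hr : ∀ i, 0 < r i)
    (P : ℝ → Prop) (hP : ∀ᶠ t in 𝓝[>] (1 : ℝ), P t)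
    (h : ∀ t, 1 < t → P t → PackInto (ordSimplex n R) (fun i => t * r i)) :
    SympBallPacking n r R := by
  obtain ⟨t, ht, ht1⟩ := (hP.and self_mem_nhdsWithin).exists
  refine toric_pack hn r (fun i => t * r i) R (fun i => ⟨hr i, ?_⟩) (h t ht1 ht)
  exact lt_mul_of_one_lt_left (hr i) ht1

theorem ev_lt {f : ℝ → ℝ} (hf : Continuous f) {c : ℝ} (h : f 1 < c) :
    ∀ᶠ t in 𝓝[>] (1 : ℝ), f t ≤ c :=
  ((hf.tendsto 1).mono_left nhdsWithin_le_nhds).eventually_le_const h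

theorem count_case (n k m l : ℕ) (hn : 1 ≤ n) (hl : l < m) (hk : k - 1 ≤ m ^ n - l ^ n)
    (R : ℝ) (r : Fin k → ℝ) (hr : ∀ i, 0 < r i) (i₀ : Fin k) (hR : r i₀ < R)
    (hothers : ∀ i, i ≠ i₀ → (m : ℝ) * r i < R ∧ r i₀ + ((m : ℝ) - l) * r i < R) :
    SympBallPacking n r R := by
  have : Nonempty (Fin k) := ⟨i₀⟩
  let g : Fin k → ℝ := fun i => if i = i₀ then 0 else r i
  obtain ⟨iM, hiM⟩ := Finite.exists_max g
  set b := g iM
  have hb : (m : ℝ) * b < R ∧ r i₀ + ((m : ℝ) - l) * b < R := by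
    simp only [b, g]
    by_cases hi : iM = i₀
    · rw [if_pos hi]
      refine ⟨?_, by simpa using hR⟩
      simpa using (hr i₀).trans hR
    · rw [if_neg hi]; exact hothers iM hi
  have hb0 : 0 ≤ b := by
    have := hiM i₀
    simpa [g] using this
  have hm0 : (0 : ℝ) ≤ (m : ℝ) - l := by simpa using (Nat.cast_le (α := ℝ)).2 hl.le
  refine of_scaled hn r R hr (fun t => (m : ℝ) * (t * b + (t - 1)) ≤ R ∧
    t * r i₀ + ((m : ℝ) - l) * (t * b + (t - 1)) ≤ R) ?_ ?_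
  · exact (ev_lt (by fun_prop) (by simpa using hb.1)).and
      (ev_lt (by fun_prop) (by simpa using hb.2))
  · intro t ht ⟨h1, h2⟩
    refine pack_count (h := t * b + (t - 1)) hl.le ?_ h1 _ i₀ h2 hk fun i hi => ?_
    · nlinarith
    · have hbi : r i ≤ b := by simpa [g, hi] using hiM i
      nlinarith

theorem small_k_case (n k : ℕ) (hn : 1 ≤ n) (hk : k ≤ 2 ^ n) (R : ℝ) (r : Fin k → ℝ)
    (hr : ∀ i, 0 < r i) (hR : ∀ i, r i < R) (hpair : ∀ i j, i ≠ j → r i + r j < R) :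
    SympBallPacking n r R := by
  rcases Nat.eq_zero_or_pos k with hk0 | hk0
  · subst hk0
    exact ⟨fun i => i.elim0, fun i => i.elim0, fun i => i.elim0⟩
  have : Nonempty (Fin k) := ⟨⟨0, hk0⟩⟩
  obtain ⟨i₀, hi₀⟩ := Finite.exists_max r
  refine count_case n k 2 1 hn (by norm_num) (by rw [one_pow]; omega) R r hr i₀ (hR i₀) fun i hi => ?_
  have h1 := hpair i i₀ hi
  have h2 := hi₀ i
  constructor <;> push_cast <;> linarith

theorem const_case (n k : ℕ) (hn : 1 ≤ n) (R : ℝ) (r : Fin k → ℝ) (hr : ∀ i, 0 < r i)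
    (i₀ : Fin k) (hmax : ∀ i, r i ≤ r i₀) (hR : r i₀ < R)
    (hpair : ∀ i j, i ≠ j → r i + r j < R)
    (hvol : r i₀ ^ n + 4 ^ n * ∑ i : {i // i ≠ i₀}, r i.1 ^ n < R ^ n) :
    SympBallPacking n r R := by
  refine of_scaled hn r R hr (fun t => (∀ i, i ≠ i₀ → t * (r i₀ + r i) ≤ R) ∧
    t ^ n * (r i₀ ^ n + 4 ^ n * ∑ i : {i // i ≠ i₀}, r i.1 ^ n) ≤ R ^ n ∧
    t * r i₀ ≤ (r i₀ + R) / 2) ?_ ?_
  · refine (eventually_all.2 fun i => eventually_imp_distrib_left.2 fun hi => ?_).and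
      ((ev_lt (by fun_prop) (by simpa using hvol)).and (ev_lt (by fun_prop) ?_))
    · exact ev_lt (by fun_prop) (by simpa using hpair i₀ i (Ne.symm hi))
    · rw [one_mul]; linarith
  · intro t ht ⟨h1, h2, h3⟩
    refine pack_const hn _ i₀ (fun i => mul_pos (by linarith) (hr i))
      (fun i => mul_le_mul_of_nonneg_left (hmax i) (by linarith))
      (fun i hi => by linarith [h1 i hi]) (by linarith) ?_
    simp only [mul_pow]
    rw [← Finset.mul_sum]
    linarith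

theorem asymp_case (n : ℕ) (hn : 1 ≤ n) (ε : ℝ) (hε : 0 < ε) :
    ∃ δ : ℝ, 0 < δ ∧ ∀ (k : ℕ) (R : ℝ) (r : Fin k → ℝ), (∀ i, 0 < r i) → ∀ i₀ : Fin k,
      r i₀ < R → (∀ i, i ≠ i₀ → r i ≤ δ * (R - r i₀)) →
      (∑ i : {i // i ≠ i₀}, r i.1 ^ n) ≤ (1 - ε) * (R ^ n - r i₀ ^ n) →
      SympBallPacking n r R := by
  obtain ⟨δ, hδ, H⟩ := pack_asymp (n := n) hn (half_pos hε)
  refine ⟨δ / 2, half_pos hδ, fun k R r hr i₀ hR hsmall hsum => ?_⟩
  have hΔ : r i₀ ^ n < R ^ n := pow_lt_pow_left₀ hR (hr i₀).le (by omega)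
  refine of_scaled hn r R hr (fun t => t * r i₀ ≤ (r i₀ + R) / 2 ∧
    (∀ i, i ≠ i₀ → t * r i ≤ δ * (R - t * r i₀)) ∧
    t ^ n * (∑ i : {i // i ≠ i₀}, r i.1 ^ n) - (1 - ε / 2) * (R ^ n - t ^ n * r i₀ ^ n) ≤ 0) ?_ ?_
  · refine (ev_lt (by fun_prop) (by rw [one_mul]; linarith)).and
      ((eventually_all.2 fun i => eventually_imp_distrib_left.2 fun hi => ?_).and
        (ev_lt (by fun_prop) ?_))
    · have h1 := hsmall i hi
      have h2 : 0 < δ * (R - r i₀) := mul_pos hδ (sub_pos.2 hR)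
      have key : ∀ᶠ t in 𝓝[>] (1 : ℝ), t * r i - δ * (R - t * r i₀) ≤ 0 :=
        ev_lt (by fun_prop) (by simp only [one_mul]; linarith)
      exact key.mono fun t ht => by linarith
    · simp only [one_pow, one_mul]
      have := mul_pos hε (sub_pos.2 hΔ)
      linarith
  · intro t ht ⟨h1, h2, h3⟩
    refine H k R _ i₀ (fun i => mul_pos (by linarith) (hr i)) (by linarith) h2 ?_
    simp only [mul_pow]
    rw [← Finset.mul_sum]
    linarith

/-- exact volume criterion for hierarchical configurations -/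
theorem dyadic_case (n k m : ℕ) (hn : 1 ≤ n) (hm : 1 ≤ m) (R : ℝ) (hR : 0 < R)
    (r : Fin k → ℝ) (j : Fin k → ℕ) (hr : ∀ i, 0 < r i)
    (hlt : ∀ i, (m : ℝ) * 2 ^ (j i) * r i < R)
    (hsum : ∑ i, (((2 : ℝ) ^ n) ^ (j i))⁻¹ ≤ (m : ℝ) ^ n) : SympBallPacking n r R := by
  have hm0 : (0 : ℝ) < m := by exact_mod_cast hm
  set h := R / m with hh
  have hh0 : 0 < h := div_pos hR hm0
  refine toric_pack hn r (fun i => h / 2 ^ (j i)) R (fun i => ⟨hr i, ?_⟩) ?_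
  · have := hlt i
    rw [hh, div_div, lt_div_iff₀ (by positivity)]
    linarith
  · refine pack_dyadic j hh0 (pack_children (n := n) hR (m := m) hm) ?_
    simp only [Fintype.card_fun, Fintype.card_fin, Nat.cast_pow, div_pow]
    rw [mul_comm _ ((R / m) ^ n)] at *
    calc ∑ i, h ^ n / ((2 : ℝ) ^ (j i)) ^ n = h ^ n * ∑ i, (((2 : ℝ) ^ n) ^ (j i))⁻¹ := by
          rw [Finset.mul_sum]
          refine Finset.sum_congr rfl fun i _ => ?_
          rw [← pow_mul, ← pow_mul, Nat.mul_comm (j i) n, div_eq_mul_inv]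
      _ ≤ h ^ n * (m : ℝ) ^ n := mul_le_mul_of_nonneg_left hsum (by positivity)

/-- all capacities below half of `R`: the volume factor `2^n` -/
theorem half_case (n k : ℕ) (hn : 1 ≤ n) (R : ℝ) (r : Fin k → ℝ) (hr : ∀ i, 0 < r i)
    (i₀ : Fin k) (hhalf : ∀ i, 2 * r i < R)
    (hvol : 2 ^ n * ∑ i : {i // i ≠ i₀}, r i.1 ^ n < R ^ n - (R / 2) ^ n) :
    SympBallPacking n r R := by
  have hR : 0 < R := by linarith [hr i₀, hhalf i₀]
  set σ := ∑ i : {i // i ≠ i₀}, r i.1 ^ n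
  refine of_scaled hn r R hr (fun t => (∀ i, t * (2 * r i) ≤ R) ∧
    t ^ n * (2 ^ n * σ) ≤ R ^ n - (R / 2) ^ n) ?_ ?_
  · exact (eventually_all.2 fun i => ev_lt (by fun_prop) (by simpa using hhalf i)).and
      (ev_lt (by fun_prop) (by simpa using hvol))
  · intro t ht ⟨h1, h2⟩
    have hb : ∀ i, t * r i ≤ R / 2 := fun i => by linarith [h1 i]
    refine exists_split (h := R / 2) (m := 2) (l := 1) (a := R / 2) (by positivity)
      (by push_cast; linarith) (by push_cast; linarith) (by linarith) _ i₀ (hb i₀) fun S hS => ?_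
    refine pack_round _ (by positivity) (fun i => ⟨mul_pos (by linarith) (hr i.1), hb i.1⟩) hS ?_
    rw [card_layer (by norm_num : 1 ≤ 2), one_pow,
      Nat.cast_sub (Nat.one_le_two_pow), Nat.cast_pow, Nat.cast_one, Nat.cast_ofNat, sub_mul,
      ← mul_pow, one_mul, mul_div_cancel₀ R (by norm_num : (2 : ℝ) ≠ 0)]
    simp only [mul_pow]
    rw [← Finset.mul_sum]
    linarith

/-- at most `2^n` balls that are not small -/
theorem mixed_case (n : ℕ) (hn : 1 ≤ n) (ε : ℝ) (hε : 0 < ε) :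
    ∃ δ : ℝ, 0 < δ ∧ ∀ (k : ℕ) (R : ℝ) (r : Fin k → ℝ), (∀ i, 0 < r i) → (∀ i, r i < R) →
      (∀ i j, i ≠ j → r i + r j < R) →
      (Finset.univ.filter fun i => δ * R < r i).card ≤ 2 ^ n →
      ∑ i, r i ^ n ≤ (1 - ε) * R ^ n → SympBallPacking n r R := by
  obtain ⟨δ, hδ, H⟩ := pack_fill (n := n) hn (2 ^ n) (half_pos hε)
  refine ⟨δ / 2, half_pos hδ, fun k R r hr hR hpair hcard hsum => ?_⟩
  rcases Nat.eq_zero_or_pos k with hk0 | hk0
  · subst hk0
    exact ⟨fun i => i.elim0, fun i => i.elim0, fun i => i.elim0⟩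
  have hR0 : 0 < R := (hr ⟨0, hk0⟩).trans (hR _)
  have hRn : 0 < R ^ n := pow_pos hR0 n
  refine of_scaled hn r R hr (fun t => (∀ i, t * r i ≤ R) ∧
    (∀ i j, i ≠ j → t * (r i + r j) ≤ R) ∧ (∀ i, ¬ δ / 2 * R < r i → t * r i ≤ δ * R) ∧
    t ^ n * ∑ i, r i ^ n ≤ (1 - ε / 2) * R ^ n) ?_ ?_
  · refine (eventually_all.2 fun i => ev_lt (by fun_prop) (by simpa using hR i)).and
      ((eventually_all.2 fun i => eventually_all.2 fun j => eventually_imp_distrib_left.2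
        fun hij => ev_lt (by fun_prop) (by simpa using hpair i j hij)).and
      ((eventually_all.2 fun i => eventually_imp_distrib_left.2 fun hi =>
        ev_lt (by fun_prop) ?_).and (ev_lt (by fun_prop) ?_)))
    · have := mul_pos hδ hR0
      rw [one_mul]
      linarith [not_lt.1 hi]
    · have := mul_pos hε hRn
      rw [one_pow, one_mul]
      linarith
  · intro t ht ⟨h1, h2, h3, h4⟩
    refine H k R _ (fun i => δ / 2 * R < r i) hR0 (fun i => mul_pos (by linarith) (hr i)) ?_ h1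
      ?_ h3 ?_
    · rw [Fintype.card_subtype]; exact hcard
    · refine pack_pairs hn hR0 _ (by rw [Fintype.card_subtype]; exact hcard)
        (fun i => mul_pos (by linarith) (hr i.1)) (fun i => h1 i.1) fun i j hij => ?_
      have := h2 i.1 j.1 fun h => hij (Subtype.ext h)
      linarith
    · simp only [mul_pow]
      rw [← Finset.mul_sum]
      exact h4

/-- Sufficiency in Siegel-Yao Conjecture A:
(1) for every `k ≤ 2^n`, with arbitrary radii;
(2) for one arbitrary ball and up to `m^n - l^n` further balls fitting the toric layer;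
(3) for every `k`, up to the factor `4^n` on the volume of all but the largest ball;
(4) asymptotically sharply for one arbitrary ball and many small balls;
(5) sharply for any number of unequal balls in a dyadic hierarchy below an integral level;
(6) for every `k`, with all capacities below `R/2`, up to the factor `2^n` on the volume;
(7) up to `ε` in volume whenever at most `2^n` balls fail to be small. -/
theorem result :
    (∀ n k : ℕ, 1 ≤ n → k ≤ 2 ^ n → ∀ (R : ℝ) (r : Fin k → ℝ), (∀ i, 0 < r i) →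
      (∀ i, r i < R) → (∀ i j, i ≠ j → r i + r j < R) → SympBallPacking n r R) ∧
    (∀ n k m l : ℕ, 1 ≤ n → l < m → k - 1 ≤ m ^ n - l ^ n → ∀ (R : ℝ) (r : Fin k → ℝ),
      (∀ i, 0 < r i) → ∀ i₀ : Fin k, r i₀ < R →
      (∀ i, i ≠ i₀ → (m : ℝ) * r i < R ∧ r i₀ + ((m : ℝ) - l) * r i < R) →
      SympBallPacking n r R) ∧
    (∀ n k : ℕ, 1 ≤ n → ∀ (R : ℝ) (r : Fin k → ℝ), (∀ i, 0 < r i) → ∀ i₀ : Fin k,
      (∀ i, r i ≤ r i₀) → r i₀ < R → (∀ i j, i ≠ j → r i + r j < R) →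
      r i₀ ^ n + 4 ^ n * ∑ i : {i // i ≠ i₀}, r i.1 ^ n < R ^ n →
      SympBallPacking n r R) ∧
    (∀ n : ℕ, 1 ≤ n → ∀ ε : ℝ, 0 < ε → ∃ δ : ℝ, 0 < δ ∧
      ∀ (k : ℕ) (R : ℝ) (r : Fin k → ℝ), (∀ i, 0 < r i) → ∀ i₀ : Fin k, r i₀ < R →
      (∀ i, i ≠ i₀ → r i ≤ δ * (R - r i₀)) →
      (∑ i : {i // i ≠ i₀}, r i.1 ^ n) ≤ (1 - ε) * (R ^ n - r i₀ ^ n) →
      SympBallPacking n r R) ∧
    (∀ n k m : ℕ, 1 ≤ n → 1 ≤ m → ∀ R : ℝ, 0 < R → ∀ (r : Fin k → ℝ) (j : Fin k → ℕ),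
      (∀ i, 0 < r i) → (∀ i, (m : ℝ) * 2 ^ (j i) * r i < R) →
      (∑ i, (((2 : ℝ) ^ n) ^ (j i))⁻¹) ≤ (m : ℝ) ^ n → SympBallPacking n r R) ∧
    (∀ n k : ℕ, 1 ≤ n → ∀ (R : ℝ) (r : Fin k → ℝ), (∀ i, 0 < r i) → ∀ i₀ : Fin k,
      (∀ i, 2 * r i < R) →
      2 ^ n * ∑ i : {i // i ≠ i₀}, r i.1 ^ n < R ^ n - (R / 2) ^ n →
      SympBallPacking n r R) ∧
    (∀ n : ℕ, 1 ≤ n → ∀ ε : ℝ, 0 < ε → ∃ δ : ℝ, 0 < δ ∧
      ∀ (k : ℕ) (R : ℝ) (r : Fin k → ℝ), (∀ i, 0 < r i) → (∀ i, r i < R) →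
      (∀ i j, i ≠ j → r i + r j < R) →
      (Finset.univ.filter fun i => δ * R < r i).card ≤ 2 ^ n →
      ∑ i, r i ^ n ≤ (1 - ε) * R ^ n → SympBallPacking n r R) :=
  ⟨small_k_case,
    fun n k m l hn hl hk R r hr i₀ hR h => count_case n k m l hn hl hk R r hr i₀ hR h,
    const_case, asymp_case, dyadic_case, half_case, mixed_case⟩

end Vale.Agent.Results.P209.ConjASufficiency
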